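import Vale.Agent.P011.H627.Odd.SolvNF
import Vale.Agent.P011.H182.Odd.Psi
import Vale.Agent.P011.H373.Odd.RepT
import Vale.Agent.P011.H775.Odd.RepNF
import Vale.Agent.P011.H775.Odd.WuNF

/-!
**Number fields: `ModP` from local constancy, the domains and the real places.**
-/

open NumberField IsDedekindDomain Module Filter Topology

set_option linter.unusedSectionVars false

namespace Vale.Agent.P011.H627.Odd

open Vale.Agent.P011.H775.Top Vale.Agent.P011.H439
open Vale.Agent.P011.Arith Vale.Agent.P011.Even Vale.Agent.P011.Two Vale.Agent.P011.One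
  Vale.Agent.P011.Pow
open Vale.Agent.P011.H182.Odd (Sy LCd exists_psi_dom)
open Vale.Agent.P011.H373.Odd (rep_zero rep_one)

section

variable {k K D : Type} [Field k] [NumberField k] [Field K] [NumberField K] [StarRing K]
  [DivisionRing D] [StarRing D] [Algebra k K] [Algebra k D] [Algebra K D] [IsScalarTower k K D]
  {d : kˣ} {s : K} {n M : ℕ}

open Classical in
/-- The finite set of places with the real places which do not split. -/
noncomputable def T0 (d : kˣ) (T : Finset (Pl k)) : Finset (Pl k) :=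
  T ∪ ((Finset.univ : Finset (k →+* ℝ)).filter fun φ => φ (d : k) < 0).image Sum.inr

theorem mem_T0 {T : Finset (Pl k)} {p : Pl k} :
    p ∈ T0 d T ↔ p ∈ T ∨ ∃ φ : k →+* ℝ, φ (d : k) < 0 ∧ p = Sum.inr φ := by
  classical
  rw [T0, Finset.mem_union, Finset.mem_image]
  refine or_congr Iff.rfl ⟨?_, ?_⟩
  · rintro ⟨φ, h, rfl⟩
    exact ⟨φ, (Finset.mem_filter.mp h).2, rfl⟩
  · rintro ⟨φ, h, rfl⟩
    exact ⟨φ, Finset.mem_filter.mpr ⟨Finset.mem_univ _, h⟩, rfl⟩

theorem subset_T0 {T : Finset (Pl k)} : T ⊆ T0 d T := fun _ h => mem_T0.mpr (Or.inl h)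

theorem T0_subset_Tinf {T : Finset (Pl k)} : T0 d T ⊆ Tinf T := by
  intro p hp
  rcases mem_T0.mp hp with h | ⟨φ, -, h⟩
  · exact mem_Tinf.mpr (Or.inl h)
  · exact mem_Tinf.mpr (Or.inr ⟨φ, h⟩)

instance neT0 {T : Finset (Pl k)} [h : Nonempty T] : Nonempty (T0 d T) :=
  let ⟨p⟩ := h
  ⟨⟨p.1, subset_T0 p.2⟩⟩

/-- The elements close to one at `T` and at the real places which do not split. -/
noncomputable def G0 (d : kˣ) (B : Basis (Fin M) k D) (T : Finset (Pl k)) [Nonempty T] :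
    Filter D := @nhds D (topD B (av (T0 d T))) 1

/-- **Number fields, the local homomorphism** (degree `n`). -/
def ModPsiNF (n : ℕ) : Prop :=
  ∀ (k K D : Type) [Field k] [NumberField k] [Field K] [NumberField K] [StarRing K]
    [DivisionRing D] [StarRing D] [Algebra k K] [Algebra k D] [Algebra K D] [IsScalarTower k K D]
    (d : kˣ) (s : K), Setting k K D d s → finrank K D = n ^ 2 →
    ∀ (M : ℕ) (B : Basis (Fin M) k D) (T : Finset (Pl k)) [Nonempty T], GoodT K D n d T →
      ∀ e : ℕ, e ≠ 0 → ∀ (E : Type) [AddCommGroup E] (W : Set D) (ch : D → E),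
        @Chr K D E _ _ _ _ _ (topD B (av T)) _ W ch → (∀ x : E, e • x = 0) →
        ∃ P : D → E, (∀ᶠ p in G0 d B T ×ˢ G0 d B T, P (p.1 * p.2) = P p.1 + P p.2) ∧
          ∀ᶠ g in G0 d B T, Commute g (star g) → P g = ch (star g * g⁻¹)

/-- **Number fields, the real places** (degree `n`). -/
def ModRealNF (n : ℕ) : Prop :=
  ∀ (k K D : Type) [Field k] [NumberField k] [Field K] [NumberField K] [StarRing K]
    [DivisionRing D] [StarRing D] [Algebra k K] [Algebra k D] [Algebra K D] [IsScalarTower k K D]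
    (d : kˣ) (s : K), Setting k K D d s → finrank K D = n ^ 2 →
    ∀ (M : ℕ) (B : Basis (Fin M) k D) (T : Finset (Pl k)) [Nonempty T], GoodT K D n d T →
      ∀ (E : Type) [AddCommGroup E] (W : Set D) (ch : D → E),
        @Chr K D E _ _ _ _ _ (topD B (av T)) _ W ch → ∀ P : D → E,
        (∀ᶠ p in G0 d B T ×ˢ G0 d B T, P (p.1 * p.2) = P p.1 + P p.2) →
        (∀ᶠ g in G0 d B T, Commute g (star g) → P g = ch (star g * g⁻¹)) →
        ∃ V : D → E, (∀ᶠ p in @nhds D (topD B (av T)) 1 ×ˢ @nhds D (topD B (av T)) 1,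
          V (p.1 * p.2) = V p.1 + V p.2) ∧ ∀ᶠ g in G0 d B T, V g = P g

/-- **Number fields, local constancy** (degree `n`). -/
def ModLCNF (n : ℕ) : Prop :=
  ∀ (k K D : Type) [Field k] [NumberField k] [Field K] [NumberField K] [StarRing K]
    [DivisionRing D] [StarRing D] [Algebra k K] [Algebra k D] [Algebra K D] [IsScalarTower k K D]
    (d : kˣ) (s : K), Setting k K D d s → finrank K D = n ^ 2 →
    ∀ (M : ℕ) (B : Basis (Fin M) k D) (T : Finset (Pl k)) [Nonempty T], GoodT K D n d T →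
      ∀ e : ℕ, e ≠ 0 → ∀ (E : Type) [AddCommGroup E] (W : Set D) (ch : D → E),
        @Chr K D E _ _ _ _ _ (topD B (av T)) _ W ch → (∀ x : E, e • x = 0) →
        ∀ κ : K, star κ ≠ κ → (∀ j, 1 ≤ j → j ≤ n → κ ^ j ≠ star κ ^ j) →
          ∃ C : D → E, @LCd K D E _ _ _ _ _ (topD B (av T)) _ ch κ C

/-- **Number fields, the domains** (degree `n`). -/
def ModDomNF (n : ℕ) : Prop :=
  ∀ (k K D : Type) [Field k] [NumberField k] [Field K] [NumberField K] [StarRing K]
    [DivisionRing D] [StarRing D] [Algebra k K] [Algebra k D] [Algebra K D] [IsScalarTower k K D]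
    (d : kˣ) (s : K), Setting k K D d s → finrank K D = n ^ 2 →
    ∀ (M : ℕ) (B : Basis (Fin M) k D) (T : Finset (Pl k)) [Nonempty T], GoodT K D n d T →
      ∃ κ : K, star κ ≠ κ ∧ (∀ j, 1 ≤ j → j ≤ n → κ ^ j ≠ star κ ^ j) ∧
        ∀ V ∈ @nhds D (topD B (av T)) (algebraMap K D (κ - star κ)⁻¹),
          ∃ α : K, algebraMap K D α ∈ V ∧ ∀ᶠ g in G0 d B T,
            Sy K (algebraMap K D α * g + star (algebraMap K D α * g)) ∧
              Sy K (algebraMap K D α * g * algebraMap K D κ +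
                star (algebraMap K D α * g * algebraMap K D κ))

/-- **`ModP` from the local homomorphism and the real places.** -/
theorem modP_of (hPsi : ModPsiNF n) (hR : ModRealNF n) : ModPNF n := by
  intro k K D _ _ _ _ _ _ _ _ _ _ _ d s hS hdeg M B T _ hT e he E _ W ch hc hE
  obtain ⟨P, h1, h2⟩ := hPsi k K D d s hS hdeg M B T hT e he E W ch hc hE
  obtain ⟨V, h3, h4⟩ := hR k K D d s hS hdeg M B T hT E W ch hc P h1 h2
  refine ⟨V, h3, nhds_mono B (T0_subset_Tinf (d := d) (T := T)) ?_⟩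
  filter_upwards [h2, h4] with g h5 h6 h7
  rw [h6, h5 h7]

/-- **The local homomorphism from local constancy and the domains.** -/
theorem modPsi_of (hLC : ModLCNF n) (hD : ModDomNF n) : ModPsiNF n := by
  intro k K D _ _ _ _ _ _ _ _ _ _ _ d s hS hdeg M B T _ hT e he E _ W ch hc hE
  obtain ⟨κ, hκ, hκj, hdom⟩ := hD k K D d s hS hdeg M B T hT
  obtain ⟨C, hC⟩ := hLC k K D d s hS hdeg M B T hT e he E W ch hc hE κ hκ hκj
  have hstk : ∀ (c : k) (x : D), star (c • x) = c • star x := by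
    intro c x
    rw [← algebraMap_smul K c x, hS.star_smul, (hS.fix _).mpr ⟨c, rfl⟩, algebraMap_smul]
  have hfix : ∀ c : k, star (algebraMap k K c) = algebraMap k K c := fun c =>
    (hS.fix _).mpr ⟨c, rfl⟩
  have hst : ∀ c : K, star (algebraMap K D c) = algebraMap K D (star c) := fun c => hS.star_alg c
  have hnd := nd_nf (K := K) B T hfix
  have hspt := spt_nf (K := K) B T hS fun p hp => by
    obtain ⟨v, h1, h2, -⟩ := hT.fin p hp
    exact ⟨v, h1, h2⟩
  have hwu := wu_nf (K := K) B T hS fun p hp => by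
    obtain ⟨v, h1, -, h2⟩ := hT.fin p hp
    exact ⟨v, h1, h2⟩
  -- the fine topology
  have hFF : Tendsto (fun p : D × D => p.1 * p.2) (G0 d B T ×ˢ G0 d B T) (G0 d B T) := by
    have h1 := tendsto_mul B (av (T0 d T)) 1 1
    rwa [mul_one] at h1
  have hF1 : pure 1 ≤ G0 d B T := @pure_le_nhds D (topD B (av (T0 d T))) 1
  have hF : G0 d B T ≤ @nhds D (topD B (av T)) 1 := nhds_mono B subset_T0
  let _ := topD B (av T)
  have i1 : IsTopologicalRing D := isTopologicalRing B (av T)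
  have i2 : ContinuousInv₀ D := continuousInv₀ B (av T)
  have i3 : ContinuousStar D := inst_star B T hstk
  have i4 : T2Space D := t2 B (av T)
  refine exists_psi_dom hst hc hC ?_ ?_ hF hF1 hFF hdom
  · intro V hV V1 hV1
    obtain ⟨V', hV', h⟩ := rep_zero hst hwu hspt hnd hV hV1
    refine ⟨V', hV', fun s hs hsy => ?_⟩
    obtain ⟨t, y, h1, h2, -, h3, h4, h5⟩ := h s hs hsy
    exact ⟨t, y, h1, h2, h3, h4, h5⟩
  · intro V hV
    obtain ⟨V', hV', h⟩ := rep_one hst hwu hspt hV
    refine ⟨V', hV', fun s hs hsy => ?_⟩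
    obtain ⟨t, y, h1, h2, -, h3, h4, h5⟩ := h s hs hsy
    exact ⟨t, y, h1, h2, h3, h4, h5⟩

/-- **The solvable step in all odd degrees from the open modules.** -/
theorem solv_of_four (hLC : ∀ n, 3 ≤ n → Odd n → ModLCNF n)
    (hD : ∀ n, 3 ≤ n → Odd n → ModDomNF n) (hV : ∀ n, 3 ≤ n → Odd n → ModRealNF n)
    (hR : ∀ n, 3 ≤ n → Odd n → ModRWNF n) : ∀ n, 3 ≤ n → Odd n → H976.Solv n :=
  solv_of (fun n hn ho => modP_of (modPsi_of (hLC n hn ho) (hD n hn ho)) (hV n hn ho)) hR

end

end Vale.Agent.P011.H627.Odd
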