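import Vale.Agent.P011.H627.Odd.Core
import Vale.Agent.P011.H976.RHNF

/-!
**Number fields: the solvable step in odd degree from the modules.**  `T` is a finite set of places
of `k` containing `Tdiv`.
-/

open NumberField IsDedekindDomain Module Filter
open scoped commutatorElement

set_option linter.unusedSectionVars false

namespace Vale.Agent.P011.H627.Odd

open Vale.Agent.P011.H699.Odd
open Vale.Agent.P011.Arith Vale.Agent.P011.Even Vale.Agent.P011.Two Vale.Agent.P011.One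
  Vale.Agent.P011.Pow Vale.Agent.P011.H976

section

variable {k K D : Type} [Field k] [NumberField k] [Field K] [NumberField K] [StarRing K]
  [DivisionRing D] [StarRing D] [Algebra k K] [Algebra k D] [Algebra K D] [IsScalarTower k K D]
  {d : kˣ} {s : K} {Ω : Type} [Field Ω] [Algebra K Ω] {n M : ℕ}

/-- The neighbourhoods of one for the topology given by the places of `T`. -/
def nbT (B : Basis (Fin M) k D) (T : Set (Pl k)) : Filter D where
  sets := {O | ∃ ε : ℝ, 0 < ε ∧ ∀ x : D, (∀ p ∈ T, nm B p (x - 1) < ε) → x ∈ O}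
  univ_sets := ⟨1, one_pos, fun _ _ => Set.mem_univ _⟩
  sets_of_superset := fun ⟨ε, hε, h⟩ hxy => ⟨ε, hε, fun x hx => hxy (h x hx)⟩
  inter_sets := fun ⟨ε, hε, h⟩ ⟨ε', hε', h'⟩ => ⟨min ε ε', lt_min hε hε', fun x hx =>
    ⟨h x fun p hp => (hx p hp).trans_le (min_le_left _ _),
      h' x fun p hp => (hx p hp).trans_le (min_le_right _ _)⟩⟩

theorem mem_nbT {B : Basis (Fin M) k D} {T : Set (Pl k)} {O : Set D} :
    O ∈ nbT B T ↔ ∃ ε : ℝ, 0 < ε ∧ ∀ x : D, (∀ p ∈ T, nm B p (x - 1) < ε) → x ∈ O := Iff.rfl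

/-- The sets of units containing the units close to one at finitely many places. -/
def VT (B : Basis (Fin M) k D) : Set (Set Dˣ) :=
  {Y | ∃ S : Set (Pl k), S.Finite ∧ ∃ ε : ℝ, 0 < ε ∧
    ∀ u : Dˣ, (∀ p ∈ S, nm B p ((u : D) - 1) < ε) → u ∈ Y}

/-- **The output of the first part**: the commutators of the unitary elements close to one at the
places of `T`. -/
def ModE (f : D →ₐ[K] Matrix (Fin n) (Fin n) Ω) (B : Basis (Fin M) k D) (T : Set (Pl k)) : Prop :=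
  ∀ Q H : Subgroup (SUD f), Q.Normal → H.Normal → Q ≤ H → Q.index ≠ 0 →
    PF B (GU f) (Im H) (Tdiv k K D) → (Q.relIndex H).Prime →
    (∀ g : SUD f, ∀ x ∈ H, ⁅g, x⁆ ∈ Q) →
    ∃ ε : ℝ, 0 < ε ∧ ∀ u w : Dˣ, u ∈ Ug D → w ∈ Ug D →
      (∀ p ∈ T, nm B p ((u : D) - 1) < ε) → (∀ p ∈ T, nm B p ((w : D) - 1) < ε) →
      ⁅u, w⁆ ∈ Q.map (SUD f).subtype

/-- **The solvable step from the modules.** -/
theorem solvAt_of_mods (hS : Setting k K D d s) (hn : 3 ≤ n) (hdeg : finrank K D = n ^ 2)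
    (f : D →ₐ[K] Matrix (Fin n) (Fin n) Ω) (B : Basis (Fin M) k D) {T : Set (Pl k)}
    (hTf : T.Finite) (hT : Tdiv k K D ⊆ T) {N : D →* K}
    (hN : ∀ x, algebraMap K Ω (N x) = (f x).det) (hNa : ∀ a : K, N (algebraMap K D a) = a ^ n)
    (hNs : ∀ x, N (star x) = star (N x)) (hsub : SmallSub (nbT B T))
    (hNC : NrdCont N (nbT B T) n) (hNR : NoRoot K (nbT B T) n) (hE : ModE f B T)
    (hA : ∀ l : ℕ, l.Prime → ModA N (nbT B T) (VT B) (n * l)) : SolvAt k f B := by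
  have hG : ∀ u : Dˣ, u ∈ Gg N ↔ u ∈ SUD f := by
    intro u
    rw [mem_Gg, mem_SUD, mem_Ug]
    refine and_congr_right fun _ => ?_
    rw [← hN, ← map_one (algebraMap K Ω)]
    exact (algebraMap K Ω).injective.eq_iff.symm
  have hNst : ∀ u : Dˣ, u ∈ Ug D →
      algebraMap K D (N (u : D)) * star (algebraMap K D (N (u : D))) = 1 := by
    intro u hu
    rw [hS.star_alg, ← hNs, ← map_mul, ← map_mul, mem_Ug.mp hu, map_one, map_one]
  refine solvAt_of_pf fun Q H hQ hH hQH hi hpf hp hc => ?_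
  obtain ⟨ε, hε, hcom⟩ := hE Q H hQ hH hQH hi hpf hp hc
  obtain ⟨η, hη, hball⟩ := hpf
  -- one radius for the finite set `T`
  obtain ⟨δ, hδ, hδη⟩ : ∃ δ : ℝ, 0 < δ ∧ ∀ p ∈ T, δ ≤ η p := by
    by_cases hne : T.Nonempty
    · obtain ⟨p0, -, hmin⟩ := Set.exists_min_image T η hTf hne
      exact ⟨η p0, hη p0, hmin⟩
    · exact ⟨1, one_pos, fun p hp => absurd ⟨p, hp⟩ hne⟩
  have hpowQ : ∀ x ∈ H, x ^ (Q.relIndex H) ∈ Q := by
    intro x hx
    have hnn : (Q.subgroupOf H).Normal := inferInstance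
    have h1 := Subgroup.pow_index_mem (Q.subgroupOf H) (⟨x, hx⟩ : H)
    rw [Subgroup.mem_subgroupOf] at h1
    exact h1
  have hQG : Q.map (SUD f).subtype ≤ Gg N := by
    rintro _ ⟨x, -, rfl⟩
    exact (hG _).mpr x.2
  obtain ⟨O, hO, Y, hY, h2⟩ := core (Q := Q.map (SUD f).subtype) (n := n) hNa hNst hsub hNC hNR
    (hA _ hp) hQG
    (O₁ := {x | ∀ p ∈ T, nm B p (x - 1) < ε}) (O₂ := {x | ∀ p ∈ T, nm B p (x - 1) < δ})
    (mem_nbT.mpr ⟨ε, hε, fun x hx => hx⟩) (mem_nbT.mpr ⟨δ, hδ, fun x hx => hx⟩)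
    (fun u v hu hv huO hvO => hcom u v hu hv huO hvO)
    (fun u hu huO => by
      have h1 : (u : D) ∈ Im H := hball _ ((hG u).mp hu)
        fun p hp' => (huO p (hT hp')).trans_le (hδη p (hT hp'))
      obtain ⟨x, hx, hxu⟩ := h1
      have h3 : u = (SUD f).subtype x := Units.ext hxu.symm
      exact ⟨x ^ (Q.relIndex H), hpowQ x hx, by rw [map_pow, ← h3]⟩)
  obtain ⟨ε₁, hε₁, h3⟩ := mem_nbT.mp hO
  obtain ⟨S, hSf, ε₂, hε₂, h4⟩ := hY
  have hPF : PF B (GU f) (Im Q) (T ∪ S) := by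
    refine ⟨fun _ => min ε₁ ε₂, fun _ => lt_min hε₁ hε₂, fun g hg hgn => ?_⟩
    obtain ⟨u, hu, rfl⟩ := exists_SUD hg
    obtain ⟨x, hx, hxu⟩ := h2 u ((hG u).mpr hu)
      (h3 _ fun p hp' => (hgn p (Or.inl hp')).trans_le (min_le_left _ _))
      (h4 u fun p hp' => (hgn p (Or.inr hp')).trans_le (min_le_right _ _))
    exact ⟨x, hx, congrArg Units.val hxu⟩
  exact pf_tdiv hS hn hdeg f B im_sub one_im (fun a ha b hb => mul_im ha hb) hi
    (fun x hx => pow_im (fun g => Subgroup.pow_index_mem Q g) hx) (hTf.union hSf) hPF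

/-- The central roots of unity are not close to one. -/
theorem noRoot (B : Basis (Fin M) k D) {T : Set (Pl k)} (hT : T.Nonempty) (hn : 0 < n) :
    NoRoot K (nbT B T) n := by
  classical
  obtain ⟨p, hp⟩ := hT
  have hfin : {ζ : K | ζ ^ n = 1 ∧ ζ ≠ 1}.Finite := by
    refine Set.Finite.subset (Polynomial.nthRootsFinset n (1 : K)).finite_toSet ?_
    rintro ζ ⟨h, -⟩
    exact (Polynomial.mem_nthRootsFinset hn (1 : K)).mpr h
  have hpos : ∀ ζ ∈ {ζ : K | ζ ^ n = 1 ∧ ζ ≠ 1}, 0 < nm B p (algebraMap K D ζ - 1) := by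
    rintro ζ ⟨-, h⟩
    refine nm_pos B p ?_
    rw [sub_ne_zero, ← map_one (algebraMap K D)]
    exact fun h' => h ((algebraMap K D).injective h')
  by_cases hne : {ζ : K | ζ ^ n = 1 ∧ ζ ≠ 1}.Nonempty
  · obtain ⟨ζ0, hζ0, hmin⟩ := Set.exists_min_image _
      (fun ζ : K => nm B p (algebraMap K D ζ - 1)) hfin hne
    refine ⟨{x | ∀ q ∈ T, nm B q (x - 1) < nm B p (algebraMap K D ζ0 - 1)},
      mem_nbT.mpr ⟨_, hpos ζ0 hζ0, fun x hx => hx⟩, fun ζ hζ hO => ?_⟩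
    by_contra h
    exact absurd (hO p hp) (not_lt.mpr (hmin ζ ⟨hζ, h⟩))
  · refine ⟨Set.univ, univ_mem, fun ζ hζ _ => ?_⟩
    by_contra h
    exact hne ⟨ζ, hζ, h⟩

end

end Vale.Agent.P011.H627.Odd
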