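import Vale.Agent.P011.H627.Odd.Core
import Vale.Agent.P011.H955.Odd.Hil
import Vale.Agent.P011.H439.State

/-!
**The module on characters from the two germs.**  A character of an open subgroup of the unitary
group gives a homomorphism `P` near one on `D` (`ModP`); homomorphisms near one vanish on the
elements of reduced norm one (`ModRW`); the elements of reduced norm one of the unitary group are
of the form `star h * h⁻¹` with `h` of reduced norm one, close to one.
-/

open Module Filter Topology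

set_option linter.unusedSectionVars false

namespace Vale.Agent.P011.H627.Odd

open Vale.Agent.P011.H699.Odd Vale.Agent.P011.H439 Vale.Agent.P011.H955.Odd

section

variable {K D : Type} [Field K] [StarRing K] [DivisionRing D] [StarRing D] [Algebra K D]

/-- **From characters to homomorphisms near one.**  `G` is a filter on `D`, finer than the
neighbourhoods of one. -/
def ModP (K : Type) {D : Type} [Field K] [StarRing K] [DivisionRing D] [StarRing D] [Algebra K D]
    [TopologicalSpace D] (G : Filter D) (e : ℕ) : Prop :=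
  ∀ (E : Type) [AddCommGroup E] (W : Set D) (ch : D → E), Chr K W ch → (∀ x : E, e • x = 0) →
    ∃ P : D → E, (∀ᶠ p in 𝓝 (1 : D) ×ˢ 𝓝 (1 : D), P (p.1 * p.2) = P p.1 + P p.2) ∧
      ∀ᶠ g in G, Commute g (star g) → P g = ch (star g * g⁻¹)

/-- **Homomorphisms near one vanish on the elements of reduced norm one.** -/
def ModRW (N : D →* K) (F : Filter D) (e : ℕ) : Prop :=
  ∀ (E : Type) [AddCommGroup E] (P : D → E), (∀ x : E, e • x = 0) →
    (∀ᶠ p in F ×ˢ F, P (p.1 * p.2) = P p.1 + P p.2) → ∀ᶠ x in F, N x = 1 → P x = 0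

/-- Reduction to a group of exponent `e`. -/
theorem exists_exp_char {A E : Type} [Group A] [CommGroup E] {W : Subgroup A} {e : ℕ} {c : A → E}
    (hc : ∀ u ∈ W, ∀ v ∈ W, c (u * v) = c u * c v) (hce : ∀ u ∈ W, c u ^ e = 1) :
    ∃ (E' : Type) (_ : CommGroup E') (c' : A → E'), (∀ x : E', x ^ e = 1) ∧
      (∀ u ∈ W, ∀ v ∈ W, c' (u * v) = c' u * c' v) ∧ ∀ u ∈ W, (c' u = 1 ↔ c u = 1) := by
  classical
  refine ⟨(powMonoidHom e : E →* E).ker, inferInstance,
    fun u => if h : c u ^ e = 1 then ⟨c u, h⟩ else 1, ?_, ?_, ?_⟩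
  · rintro ⟨x, hx⟩
    exact Subtype.ext hx
  · intro u hu v hv
    simp only [dif_pos (hce u hu), dif_pos (hce v hv), dif_pos (hce _ (mul_mem hu hv))]
    exact Subtype.ext (hc u hu v hv)
  · intro u hu
    simp only [dif_pos (hce u hu)]
    constructor
    · intro h
      exact congrArg Subtype.val h
    · intro h
      exact Subtype.ext h

theorem chr_of [TopologicalSpace D] {E : Type} [CommGroup E] {W : Subgroup Dˣ} (hW : W ≤ Ug D)
    (ho : Opn (𝓝 (1 : D)) W) (hst : ∀ c : K, star (algebraMap K D c) = algebraMap K D (star c))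
    (hZ : Zg K D ≤ W) {c : Dˣ → E} (hc : ∀ u ∈ W, ∀ v ∈ W, c (u * v) = c u * c v)
    (hc1 : ∀ u ∈ Zg K D, c u = 1) :
    ∃ ch : D → Additive E, Chr K {x : D | ∃ u ∈ W, (u : D) = x} ch ∧
      ∀ u : Dˣ, ch (u : D) = Additive.ofMul (c u) := by
  classical
  let ch : D → Additive E := fun x =>
    if h : x ≠ 0 then Additive.ofMul (c (Units.mk0 x h)) else 0
  have hch : ∀ u : Dˣ, ch (u : D) = Additive.ofMul (c u) := by
    intro u
    have h1 : (u : D) ≠ 0 := u.ne_zero
    have h2 : Units.mk0 (u : D) h1 = u := Units.ext rfl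
    simp only [ch, dif_pos h1, h2]
  refine ⟨ch, ?_, hch⟩
  refine ⟨?_, ?_, ?_, ?_, ?_, ?_⟩
  · rintro _ ⟨u, hu, rfl⟩
    exact mem_Ug.mp (hW hu)
  · rintro _ ⟨u, hu, rfl⟩ _ ⟨v, hv, rfl⟩
    exact ⟨u * v, mul_mem hu hv, Units.val_mul u v⟩
  · rintro _ ⟨u, hu, rfl⟩
    refine ⟨u⁻¹, inv_mem hu, ?_⟩
    have h1 : (u : D) * star (u : D) = 1 := mem_Ug.mp (hW hu)
    rw [Units.val_inv_eq_inv_val]
    exact (eq_inv_of_mul_eq_one_right h1).symm
  · rintro _ ⟨u, hu, rfl⟩ _ ⟨v, hv, rfl⟩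
    rw [← Units.val_mul, hch, hch, hch, hc u hu v hv]
    rfl
  · obtain ⟨O, hO, h⟩ := ho
    filter_upwards [hO] with x hx hxs
    have hx0 : x ≠ 0 := by
      rintro rfl
      rw [zero_mul] at hxs
      exact zero_ne_one hxs
    exact ⟨Units.mk0 x hx0, h _ (mem_Ug.mpr hxs) hx, rfl⟩
  · intro a ha
    have ha0 : algebraMap K D a ≠ 0 := by
      intro h0
      have h1 : a = 0 := by
        rwa [map_eq_zero_iff _ (algebraMap K D).injective] at h0
      rw [h1, zero_mul] at ha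
      exact zero_ne_one ha
    have hz : Units.mk0 _ ha0 ∈ Zg K D := by
      refine ⟨mem_Ug.mpr ?_, a, rfl⟩
      change algebraMap K D a * star (algebraMap K D a) = 1
      rw [hst, ← map_mul, ha, map_one]
    refine ⟨⟨_, hZ hz, rfl⟩, ?_⟩
    have h1 : ch ((Units.mk0 _ ha0 : Dˣ) : D) = 0 := by
      rw [hch, hc1 _ hz]
      rfl
    exact h1

/-- **The module `ModA` from `ModP` and `ModRW`.** -/
theorem modA_of [TopologicalSpace D] {N : D →* K} {n m e : ℕ} (hn : n = 2 * m + 1)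
    (hst : ∀ c : K, star (algebraMap K D c) = algebraMap K D (star c))
    (hNa : ∀ a : K, N (algebraMap K D a) = a ^ n) (hNs : ∀ x : D, N (star x) = star (N x))
    {t : K} {G : Filter D} (hG : G ≤ 𝓝 (1 : D)) {V : Set (Set Dˣ)}
    (hV : ∀ O ∈ G, {u : Dˣ | (u : D) ∈ O} ∈ V) (hg0 : ∀ᶠ u in G, Vale.Agent.P011.H955.Odd.hg t u ≠ 0)
    (hhh : Tendsto (hh N m t) G G) (hP : ModP K G e)
    (hR : ModRW N (𝓝 (1 : D)) e) :
    ModA N (𝓝 (1 : D)) V e := by
  intro E₀ _ W hW ho hZ c₀ hc₀ hc1₀ hce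
  obtain ⟨E, i1, c, hE, hc, hcc⟩ := exists_exp_char hc₀ hce
  have hc1 : ∀ u ∈ Zg K D, c u = 1 := fun u hu => (hcc u (hZ hu)).mpr (hc1₀ u hu)
  obtain ⟨ch, hchr, hch⟩ := chr_of hW ho hst hZ hc hc1
  have hE' : ∀ x : Additive E, e • x = 0 := fun x => hE x.toMul
  obtain ⟨P, hP1, hP2⟩ := hP (Additive E) _ ch hchr hE'
  have h3 := hR (Additive E) P hE' hP1
  have h4 : ∀ᶠ u in G, u * star u = 1 → N u = 1 → ch u = 0 := by
    filter_upwards [hhh.eventually hP2, hhh.eventually (hG h3), hg0] with u h5 h6 h7 hu hNu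
    obtain ⟨-, s2, -, -, s5, s6⟩ := hh_spec hst hNs hn hNa hu hNu h7
    have h8 := h5 s5
    rw [← s6, h6 s2] at h8
    exact h8.symm
  refine ⟨Set.univ, univ_mem, _, hV _ h4, fun u hu hNu _ huY => ?_⟩
  have h9 : ch (u : D) = 0 := huY (mem_Ug.mp (hW hu)) hNu
  rw [hch] at h9
  exact (hcc u hu).mp (ofMul_eq_zero.mp h9)

end

end Vale.Agent.P011.H627.Odd
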