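import Vale.Agent.P011.H627.Odd.Core
import Vale.Agent.P011.H775.Odd.TopNorm
import Vale.Agent.P011.H465.NrdCont

/-!
**The topology of `H775/Odd/Top` has small open subgroups, and the reduced norm is continuous.**
Field-general, every characteristic.
-/

open Module Filter Topology

set_option linter.style.haveILetI false
set_option linter.unusedSectionVars false

namespace Vale.Agent.P011.H627.Odd

open Vale.Agent.P011.H699.Odd Vale.Agent.P011.H775.Top

section ball

variable {k D : Type*} [Field k] [DivisionRing D] [Algebra k D] {ι κ : Type*} [Fintype ι]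
  [Fintype κ] [Nonempty ι] (B : Basis κ k D) (a : ι → AbsoluteValue k ℝ)

theorem pn_unit_le (ha : ∀ i, IsNonarchimedean (a i)) {x : D} (h : pn B a (x - 1) < 1) :
    pn B a x ≤ 1 := by
  have h1 := pn_add_le_max B a ha (x - 1) 1
  rw [sub_add_cancel, pn_one] at h1
  exact h1.trans (max_le h.le le_rfl)

theorem pn_inv_le (ha : ∀ i, IsNonarchimedean (a i)) {x y : D} (hxy : x * y = 1)
    (h : pn B a (x - 1) < 1) : pn B a y ≤ 1 := by
  by_contra hn
  rw [not_le] at hn
  have h1 : y = 1 + -((x - 1) * y) := by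
    rw [sub_mul, hxy, one_mul]
    abel
  have h2 : pn B a y ≤ max 1 (pn B a (x - 1) * pn B a y) := by
    conv_lhs => rw [h1]
    refine (pn_add_le_max B a ha _ _).trans ?_
    rw [pn_one, pn_neg]
    exact max_le_max le_rfl (pn_mul_le B a _ _)
  have h3 : pn B a (x - 1) * pn B a y < pn B a y := by nlinarith
  rcases le_max_iff.mp h2 with h4 | h4
  · exact absurd h4 (not_le.mpr hn)
  · exact absurd h4 (not_le.mpr h3)

/-- The units close to one form a subgroup. -/
noncomputable def ballG (ha : ∀ i, IsNonarchimedean (a i)) (ε : ℝ) (h0 : 0 < ε) (h1 : ε ≤ 1) :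
    Subgroup Dˣ where
  carrier := {u | pn B a ((u : D) - 1) < ε}
  mul_mem' := by
    intro u v hu hv
    change pn B a (((u * v : Dˣ) : D) - 1) < ε
    have h2 : ((u * v : Dˣ) : D) - 1 = (u : D) * ((v : D) - 1) + ((u : D) - 1) := by
      rw [Units.val_mul]
      noncomm_ring
    rw [h2]
    refine (pn_add_le_max B a ha _ _).trans_lt (max_lt ?_ hu)
    refine (pn_mul_le B a _ _).trans_lt ?_
    have h3 := pn_unit_le B a ha (lt_of_lt_of_le hu h1)
    have h4 := pn_nonneg B a ((v : D) - 1)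
    have h5 : pn B a ((v : D) - 1) < ε := hv
    nlinarith
  one_mem' := by
    change pn B a (((1 : Dˣ) : D) - 1) < ε
    rw [Units.val_one, sub_self, pn_zero]
    exact h0
  inv_mem' := by
    intro u hu
    change pn B a (((u⁻¹ : Dˣ) : D) - 1) < ε
    have h2 : ((u⁻¹ : Dˣ) : D) - 1 = -(((u⁻¹ : Dˣ) : D) * ((u : D) - 1)) := by
      rw [mul_sub, Units.inv_mul, mul_one]
      abel
    have h3 := pn_inv_le B a ha (x := (u : D)) (y := ((u⁻¹ : Dˣ) : D)) (Units.mul_inv u)
      (lt_of_lt_of_le hu h1)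
    rw [h2, pn_neg]
    refine (pn_mul_le B a _ _).trans_lt ?_
    have h4 := pn_nonneg B a ((u : D) - 1)
    have h5 : pn B a ((u : D) - 1) < ε := hu
    nlinarith

/-- **Small open subgroups of the group of units.** -/
theorem exists_openSub (ha : ∀ i, IsNonarchimedean (a i)) {O : Set D}
    (hO : O ∈ @nhds D (topD B a) 1) : ∃ W : Subgroup Dˣ, (∀ u ∈ W, (u : D) ∈ O) ∧
      ∃ O' ∈ @nhds D (topD B a) 1, ∀ u : Dˣ, (u : D) ∈ O' → u ∈ W := by
  obtain ⟨ε, hε, h⟩ := (mem_nhds_iff_pn B a).mp hO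
  have h0 : 0 < min ε 1 := lt_min hε one_pos
  refine ⟨ballG B a ha (min ε 1) h0 (min_le_right _ _), fun u hu => h _
    (lt_of_lt_of_le hu (min_le_left _ _)), {x | pn B a (x - 1) < min ε 1},
    (mem_nhds_iff_pn B a).mpr ⟨_, h0, fun x hx => hx⟩, fun u hu => hu⟩

end ball

section unit

variable {k K D : Type} [Field k] [Field K] [DivisionRing D] [StarRing D]
  [Algebra k K] [Algebra k D] [Algebra K D] [IsScalarTower k K D] {ι κ : Type} [Fintype ι]
  [Fintype κ] [Nonempty ι] (B : Basis κ k D) (a : ι → AbsoluteValue k ℝ)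

/-- **Small open subgroups of the unitary group.** -/
theorem smallSub (ha : ∀ i, IsNonarchimedean (a i)) : SmallSub (@nhds D (topD B a) 1) := by
  intro O hO
  obtain ⟨W, hW, O', hO', h⟩ := exists_openSub B a ha hO
  exact ⟨W ⊓ Ug D, inf_le_right, ⟨O', hO', fun u hu huO => ⟨h u huO, hu⟩⟩, fun u hu => hW u hu.1⟩

/-- Linear maps are continuous. -/
theorem continuous_lin (L : D →ₗ[k] D) : @Continuous D D (topD B a) (topD B a) L := by
  letI := topD B a
  have hadd := isTopologicalAddGroup B a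
  obtain ⟨C, hC, hL⟩ := sz_linear B a L
  refine continuous_iff_continuousAt.mpr fun x => ?_
  refine (tendsto_iff B a).mpr ?_
  have h1 : Tendsto (fun y => C * sz B a (y - x)) (𝓝 x) (𝓝 (C * 0)) :=
    ((tendsto_iff B a).mp tendsto_id).const_mul C
  rw [mul_zero] at h1
  refine squeeze_zero (fun y => sz_nonneg B a _) (fun y => ?_) h1
  rw [← map_sub]
  exact hL _

/-- The reduced norm is continuous. -/
theorem continuous_nrd [FiniteDimensional K D] {Ω : Type} [Field Ω] [Algebra K Ω] {n : ℕ}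
    (f : D →ₐ[K] Matrix (Fin n) (Fin n) Ω) {N : D → K}
    (h : ∀ x, algebraMap K Ω (N x) = (f x).det) :
    @Continuous D D (topD B a) (topD B a) fun x => algebraMap K D (N x) := by
  letI := topD B a
  have hr := isTopologicalRing B a
  refine H465.nrd_cont (fun Λ => ?_) f h
  have h1 := continuous_lin B a ((Algebra.linearMap K D).restrictScalars k ∘ₗ Λ.restrictScalars k)
  exact h1

/-- **Continuity of `u ^ n / N u` at one.** -/
theorem nrdCont [FiniteDimensional K D] {Ω : Type} [Field Ω] [Algebra K Ω] {n : ℕ}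
    (f : D →ₐ[K] Matrix (Fin n) (Fin n) Ω) {N : D →* K}
    (h : ∀ x, algebraMap K Ω (N x) = (f x).det) : NrdCont N (@nhds D (topD B a) 1) n := by
  letI := topD B a
  have hr := isTopologicalRing B a
  have hi := continuousInv₀ B a
  have h1 := continuous_nrd B a f h
  have h2 : Tendsto (fun x : D => x ^ n * (algebraMap K D (N x))⁻¹) (𝓝 1) (𝓝 1) := by
    have h3 : Tendsto (fun x : D => algebraMap K D (N x)) (𝓝 1) (𝓝 1) := by
      have h4 := h1.tendsto 1
      rwa [map_one, map_one] at h4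
    have h5 : Tendsto (fun x : D => (algebraMap K D (N x))⁻¹) (𝓝 1) (𝓝 (1 : D)⁻¹) :=
      h3.inv₀ one_ne_zero
    have h6 : Tendsto (fun x : D => x ^ n) (𝓝 1) (𝓝 (1 ^ n)) := (continuous_pow n).tendsto 1
    have h7 := h6.mul h5
    rwa [one_pow, inv_one, mul_one] at h7
  intro O hO
  refine ⟨_, h2 hO, fun u _ hu => ?_⟩
  rw [map_inv₀]
  exact hu

end unit

end Vale.Agent.P011.H627.Odd
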