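import Vale.Agent.P011.H627.Odd.SkelNF
import Vale.Agent.P011.H627.Odd.Small
import Vale.Agent.P011.H627.Odd.GlueA
import Vale.Agent.P011.H327.ModE
import Vale.Agent.P011.H465.NF
import Vale.Agent.P011.H775.Odd.TopNF

/-!
**Number fields: the solvable step in odd degree from `ModP` and `ModRW`.**
-/

open NumberField IsDedekindDomain Module Filter Topology
open scoped commutatorElement

set_option linter.unusedSectionVars false

namespace Vale.Agent.P011.H627.Odd

open Vale.Agent.P011.H699.Odd Vale.Agent.P011.H775.Top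
open Vale.Agent.P011.Arith Vale.Agent.P011.Even Vale.Agent.P011.Two Vale.Agent.P011.One
  Vale.Agent.P011.Pow Vale.Agent.P011.H976
open Vale.Agent.P011.W (HasNrd)
open Vale.Agent.P011.H487.Spl (SpAt)
open Vale.Agent.P011.H955.Odd (tendsto_hh hg hh)

section

variable {k K D : Type} [Field k] [NumberField k] [Field K] [NumberField K] [StarRing K]
  [DivisionRing D] [StarRing D] [Algebra k K] [Algebra k D] [Algebra K D] [IsScalarTower k K D]
  {d : kˣ} {s : K} {Ω : Type} [Field Ω] [Algebra K Ω] {n M : ℕ}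

open Classical in
/-- The finite set of places with all the real places added. -/
noncomputable def Tinf (T : Finset (Pl k)) : Finset (Pl k) :=
  T ∪ (Finset.univ : Finset (k →+* ℝ)).image Sum.inr

theorem mem_Tinf {T : Finset (Pl k)} {p : Pl k} : p ∈ Tinf T ↔ p ∈ T ∨ ∃ φ, p = Sum.inr φ := by
  classical
  rw [Tinf, Finset.mem_union, Finset.mem_image]
  refine or_congr Iff.rfl ⟨?_, ?_⟩
  · rintro ⟨φ, -, rfl⟩
    exact ⟨φ, rfl⟩
  · rintro ⟨φ, rfl⟩
    exact ⟨φ, Finset.mem_univ _, rfl⟩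

theorem subset_Tinf {T : Finset (Pl k)} : T ⊆ Tinf T := fun _ h => mem_Tinf.mpr (Or.inl h)

instance neTinf {T : Finset (Pl k)} [h : Nonempty T] : Nonempty (Tinf T) :=
  let ⟨p⟩ := h
  ⟨⟨p.1, subset_Tinf p.2⟩⟩

/-- The two forms of the neighbourhoods of one. -/
theorem nbT_eq (B : Basis (Fin M) k D) (T : Finset (Pl k)) [Nonempty T] :
    nbT B (T : Set (Pl k)) = @nhds D (topD B (av T)) 1 := by
  ext O
  rw [mem_nhds_iff_nm B T]
  exact Iff.rfl

theorem nhds_mono (B : Basis (Fin M) k D) {T T' : Finset (Pl k)} [Nonempty T] [Nonempty T']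
    (h : T ⊆ T') : @nhds D (topD B (av T')) 1 ≤ @nhds D (topD B (av T)) 1 := by
  intro O hO
  obtain ⟨ε, hε, hO⟩ := (mem_nhds_iff_nm B T).mp hO
  exact (mem_nhds_iff_nm B T').mpr ⟨ε, hε, fun x hx => hO x fun p hp => hx p (h hp)⟩

/-- **The set of places.** -/
structure GoodT (K D : Type) {k : Type} [Field k] [NumberField k] [Field K] [NumberField K]
    [DivisionRing D] [Algebra k K] [Algebra k D] [Algebra K D] (n : ℕ) (d : kˣ)
    (T : Finset (Pl k)) : Prop where
  fin : ∀ p ∈ T, ∃ v : HeightOneSpectrum (𝓞 k), p = Sum.inl v ∧ d ∈ LS (v.valuation k) ∧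
    Nonempty (K →ₐ[k] v.adicCompletion k)
  div : Tdiv k K D ⊆ T
  ram : ∀ v ∈ Ram k K D n, (Sum.inl v : Pl k) ∈ T
  spl : ∀ v : HeightOneSpectrum (𝓞 k), (Sum.inl v : Pl k) ∉ T → SpAt K D n d v

/-- **Number fields, from characters to homomorphisms near one** (degree `n`). -/
def ModPNF (n : ℕ) : Prop :=
  ∀ (k K D : Type) [Field k] [NumberField k] [Field K] [NumberField K] [StarRing K]
    [DivisionRing D] [StarRing D] [Algebra k K] [Algebra k D] [Algebra K D] [IsScalarTower k K D]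
    (d : kˣ) (s : K), Setting k K D d s → finrank K D = n ^ 2 →
    ∀ (M : ℕ) (B : Basis (Fin M) k D) (T : Finset (Pl k)) [Nonempty T], GoodT K D n d T →
      ∀ e : ℕ, e ≠ 0 → @ModP K D _ _ _ _ _ (topD B (av T))
        (@nhds D (topD B (av (Tinf T))) 1) e

/-- **Number fields, homomorphisms near one vanish on the elements of reduced norm one**
(degree `n`). -/
def ModRWNF (n : ℕ) : Prop :=
  ∀ (k K D : Type) [Field k] [NumberField k] [Field K] [NumberField K] [StarRing K]
    [DivisionRing D] [StarRing D] [Algebra k K] [Algebra k D] [Algebra K D] [IsScalarTower k K D]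
    (d : kˣ) (s : K), Setting k K D d s → finrank K D = n ^ 2 →
    ∀ (M : ℕ) (B : Basis (Fin M) k D) (T : Finset (Pl k)) [Nonempty T], GoodT K D n d T →
      ∀ N : D →* K, (∀ x, HasNrd K n x (N x)) → ∀ e : ℕ, e ≠ 0 →
        ModRW N (@nhds D (topD B (av T)) 1) e

/-- `N⁻¹` is continuous at one, for every finite set of places. -/
theorem tendsto_inv_nrd [FiniteDimensional K D] (B : Basis (Fin M) k D) (T : Finset (Pl k))
    [Nonempty T] (f : D →ₐ[K] Matrix (Fin n) (Fin n) Ω) {N : D →* K}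
    (h : ∀ x, algebraMap K Ω (N x) = (f x).det) :
    Tendsto (fun x : D => algebraMap K D (N x)⁻¹) (@nhds D (topD B (av T)) 1)
      (@nhds D (topD B (av T)) 1) := by
  let _ := topD B (av T)
  have hr := isTopologicalRing B (av T)
  have hi := continuousInv₀ B (av T)
  have h1 := continuous_nrd B (av T) f h
  have h3 : Tendsto (fun x : D => algebraMap K D (N x)) (𝓝 1) (𝓝 1) := by
    have h4 := h1.tendsto 1
    rwa [map_one, map_one] at h4
  have h5 : Tendsto (fun x : D => (algebraMap K D (N x))⁻¹) (𝓝 1) (𝓝 (1 : D)⁻¹) :=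
    h3.inv₀ one_ne_zero
  rw [inv_one] at h5
  refine h5.congr fun x => ?_
  rw [map_inv₀]

/-- **The module on characters over number fields.** -/
theorem modA_nf (hS : Setting k K D d s) (ho : Odd n) (hdeg : finrank K D = n ^ 2)
    (f : D →ₐ[K] Matrix (Fin n) (Fin n) Ω) (B : Basis (Fin M) k D) {T : Finset (Pl k)}
    [Nonempty T] (hT : GoodT K D n d T) {N : D →* K}
    (hN : ∀ x, algebraMap K Ω (N x) = (f x).det) (hN' : ∀ x, HasNrd K n x (N x))
    (hNa : ∀ a : K, N (algebraMap K D a) = a ^ n) (hNs : ∀ x, N (star x) = star (N x))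
    (hP : ModPNF n) (hR : ModRWNF n) {e : ℕ} (he : e ≠ 0) :
    ModA N (@nhds D (topD B (av T)) 1) (VT B) e := by
  obtain ⟨m, hm⟩ := ho
  have hfin : FiniteDimensional K D := hS.fin
  have hstk : ∀ (c : k) (x : D), star (c • x) = c • star x := by
    intro c x
    rw [← algebraMap_smul K c x, hS.star_smul, (hS.fix _).mpr ⟨c, rfl⟩, algebraMap_smul]
  -- the trace of `t = 1 / 2` is one
  have h2 : (2 : K) ≠ 0 := two_ne_zero
  let t : K := (2 : K)⁻¹
  have hts : star t = t := by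
    have h3 : (star (2 : K)) = 2 := by
      rw [← one_add_one_eq_two, star_add, star_one]
    change star (2 : K)⁻¹ = (2 : K)⁻¹
    rw [star_inv₀, h3]
  have ht : t + star t = 1 := by
    rw [hts]
    change (2 : K)⁻¹ + (2 : K)⁻¹ = 1
    rw [← two_mul, mul_inv_cancel₀ h2]
  -- the fine topology
  have hlim : Tendsto (fun u : D => hg t u) (@nhds D (topD B (av (Tinf T))) 1)
      (@nhds D (topD B (av (Tinf T))) 1) ∧
      Tendsto (fun u : D => hh N m t u) (@nhds D (topD B (av (Tinf T))) 1)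
      (@nhds D (topD B (av (Tinf T))) 1) := by
    have h4 := tendsto_inv_nrd B (Tinf T) f hN
    let _ := topD B (av (Tinf T))
    have hr := isTopologicalRing B (av (Tinf T))
    have hs : ContinuousStar D := inst_star B (Tinf T) hstk
    exact tendsto_hh h4 ht m tendsto_id
  have hg0 : ∀ᶠ u in @nhds D (topD B (av (Tinf T))) 1, hg t u ≠ 0 := by
    let _ := topD B (av (Tinf T))
    have ht2 : T2Space D := t2 B (av (Tinf T))
    exact hlim.1.eventually_ne one_ne_zero
  refine @modA_of K D _ _ _ _ _ (topD B (av T)) N n m e hm (fun c => hS.star_alg c) hNa hNs t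
    (@nhds D (topD B (av (Tinf T))) 1) (nhds_mono B subset_Tinf) (VT B) ?_ hg0 hlim.2
    (hP k K D d s hS hdeg M B T hT e he) (hR k K D d s hS hdeg M B T hT N hN' e he)
  intro O hO
  obtain ⟨ε, hε, h5⟩ := (mem_nhds_iff_nm B (Tinf T)).mp hO
  exact ⟨(Tinf T : Set (Pl k)), Finset.finite_toSet _, ε, hε, fun u hu => h5 _ hu⟩

/-- **The solvable step in odd degree from the two modules.** -/
theorem solvAt_of (hS : Setting k K D d s) (ho : Odd n) (hn : 3 ≤ n) (hdeg : finrank K D = n ^ 2)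
    (f : D →ₐ[K] Matrix (Fin n) (Fin n) Ω) (B : Basis (Fin M) k D) (hP : ModPNF n)
    (hR : ModRWNF n) : SolvAt k f B := by
  have hfin : FiniteDimensional K D := hS.fin
  obtain ⟨T, hT1, hT2, hT3, hT4, hT5⟩ := H327.ENF.exists_T hS (by omega) hdeg
  obtain ⟨p1, hp1⟩ := hT1
  have hne : Nonempty T := ⟨⟨p1, hp1⟩⟩
  have hT : GoodT K D n d T := ⟨hT2, hT3, hT4, hT5⟩
  obtain ⟨N, hN1, hN2, hN3, hN4⟩ := H465.exists_nrdHom hS hdeg f
  have hNs : ∀ x, N (star x) = star (N x) := by
    intro x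
    refine (algebraMap K D).injective ?_
    rw [hN3, hS.star_alg]
  have hv : ∃ v : HeightOneSpectrum (𝓞 k), (Sum.inl v : Pl k) ∈ (T : Set (Pl k)) := by
    obtain ⟨v, hv, -⟩ := hT2 p1 hp1
    exact ⟨v, hv ▸ hp1⟩
  have hna : ∀ i, IsNonarchimedean (av T i) :=
    av_nonarch fun p hp => ⟨(hT2 p hp).choose, (hT2 p hp).choose_spec.1⟩
  refine solvAt_of_mods hS hn hdeg f B (T := (T : Set (Pl k))) T.finite_toSet hT3 hN4 hN2 hNs
    ?_ ?_ (noRoot B ⟨p1, hp1⟩ (by omega)) ?_ fun l hl => ?_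
  · rw [nbT_eq]
    exact smallSub B (av T) hna
  · rw [nbT_eq]
    exact nrdCont B (av T) f hN4
  · intro Q H hQ hH hQH hi hpf hp hc
    obtain ⟨ε, hε, h1, -⟩ := H327.ENF.mod_e hS ho hn hdeg f B T.finite_toSet hT3 hT5 hv hQH hpf hc
    exact ⟨ε, hε, h1⟩
  · rw [nbT_eq]
    exact modA_nf hS ho hdeg f B hT hN4 hN1 hN2 hNs hP hR (Nat.mul_ne_zero (by omega) hl.ne_zero)

/-- **The solvable step in all odd degrees from the two modules.** -/
theorem solv_of (hP : ∀ n, 3 ≤ n → Odd n → ModPNF n) (hR : ∀ n, 3 ≤ n → Odd n → ModRWNF n) :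
    ∀ n, 3 ≤ n → Odd n → Solv n := by
  intro n hn ho k K D _ _ _ _ _ _ _ _ _ _ _ d s hS hdeg Ω _ _ f M B
  exact solvAt_of hS ho hn hdeg f B (hP n hn ho) (hR n hn ho)

end

end Vale.Agent.P011.H627.Odd
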