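import Vale.Agent.P011.H699.Odd.Frame

/-!
**The solvable step from two modules, abstract part.**  `D` is a division algebra with an
involution, `N` its reduced norm, `F` a filter on `D` (the neighbourhoods of one for the topology
given by finitely many places).  The first input says that the commutators of the unitary elements
close to one lie in `Q`; the second one, `ModA`, says that a homomorphism defined on an open
subgroup of the unitary group is trivial on the elements of reduced norm one close to one.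
Together they show that `Q` is open.
-/

open Module Filter
open scoped commutatorElement

set_option linter.unusedSectionVars false

namespace Vale.Agent.P011.H627.Odd

open Vale.Agent.P011.H699.Odd

section quot

/-- The character of the quotient `H / Q`, extended by one. -/
theorem exists_quot_char {A : Type} [Group A] {Q H : Subgroup A}
    (hc : ∀ g ∈ H, ∀ x ∈ H, ⁅g, x⁆ ∈ Q) :
    ∃ (E : Type) (_ : CommGroup E) (χ : A → E), (∀ x ∈ H, ∀ y ∈ H, χ (x * y) = χ x * χ y) ∧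
      ∀ x ∈ H, (χ x = 1 ↔ x ∈ Q) := by
  classical
  have hn : (Q.subgroupOf H).Normal := by
    refine ⟨fun q hq g => ?_⟩
    rw [Subgroup.mem_subgroupOf] at hq ⊢
    have h1 : ((g * q * g⁻¹ : H) : A) = ⁅(g : A), (q : A)⁆ * (q : A) := by
      rw [commutatorElement_def]
      push_cast
      group
    rw [h1]
    exact mul_mem (hc _ g.2 _ q.2) hq
  let i0 : CommGroup (H ⧸ Q.subgroupOf H) :=
    { (inferInstance : Group (H ⧸ Q.subgroupOf H)) with
      mul_comm := by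
        intro a b
        induction a using QuotientGroup.induction_on with
        | H x =>
          induction b using QuotientGroup.induction_on with
          | H y =>
            rw [← QuotientGroup.mk_mul, ← QuotientGroup.mk_mul]
            refine QuotientGroup.eq.mpr ?_
            rw [Subgroup.mem_subgroupOf]
            have h1 : (((x * y)⁻¹ * (y * x) : H) : A) = ⁅((y : A))⁻¹, ((x : A))⁻¹⁆ := by
              rw [commutatorElement_def]
              push_cast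
              group
            rw [h1]
            exact hc _ (inv_mem y.2) _ (inv_mem x.2) }
  refine ⟨H ⧸ Q.subgroupOf H, i0, fun x => if h : x ∈ H then QuotientGroup.mk ⟨x, h⟩ else 1,
    fun x hx y hy => ?_, fun x hx => ?_⟩
  · simp only [dif_pos hx, dif_pos hy, dif_pos (mul_mem hx hy)]
    rfl
  · simp only [dif_pos hx]
    have h1 : (QuotientGroup.mk (⟨x, hx⟩ : H) : H ⧸ Q.subgroupOf H) = 1 ↔
        (⟨x, hx⟩ : H) ∈ Q.subgroupOf H := QuotientGroup.eq_one_iff _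
    rw [Subgroup.mem_subgroupOf] at h1
    exact h1

end quot

section centre

variable {K D : Type} [Field K] [DivisionRing D] [StarRing D] [Algebra K D]

/-- The central unitary elements. -/
def Zg (K D : Type) [Field K] [DivisionRing D] [StarRing D] [Algebra K D] : Subgroup Dˣ where
  carrier := {u | u ∈ Ug D ∧ ∃ c : K, algebraMap K D c = (u : D)}
  mul_mem' := by
    rintro a b ⟨h1, c, hc⟩ ⟨h2, e, he⟩
    exact ⟨mul_mem h1 h2, c * e, by rw [map_mul, hc, he, Units.val_mul]⟩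
  one_mem' := ⟨one_mem _, 1, by rw [map_one, Units.val_one]⟩
  inv_mem' := by
    rintro a ⟨h1, c, hc⟩
    refine ⟨inv_mem h1, c⁻¹, ?_⟩
    rw [map_inv₀, hc, Units.val_inv_eq_inv_val]

theorem Zg.comm {z : Dˣ} (hz : z ∈ Zg K D) (g : Dˣ) : z * g = g * z := by
  obtain ⟨-, c, hc⟩ := hz
  refine Units.ext ?_
  rw [Units.val_mul, Units.val_mul, ← hc]
  exact Algebra.commutes c (g : D)

/-- The product of a subgroup with the group of the central unitary elements. -/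
def ZW (K : Type) {D : Type} [Field K] [DivisionRing D] [StarRing D] [Algebra K D]
    (W : Subgroup Dˣ) : Subgroup Dˣ where
  carrier := {u | ∃ z ∈ Zg K D, ∃ w ∈ W, u = z * w}
  mul_mem' := by
    rintro a b ⟨z, hz, w, hw, rfl⟩ ⟨z', hz', w', hw', rfl⟩
    refine ⟨z * z', mul_mem hz hz', w * w', mul_mem hw hw', ?_⟩
    rw [mul_assoc z w, ← mul_assoc w z', ← Zg.comm hz' w]
    group
  one_mem' := ⟨1, one_mem _, 1, one_mem _, (mul_one 1).symm⟩
  inv_mem' := by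
    rintro a ⟨z, hz, w, hw, rfl⟩
    refine ⟨z⁻¹, inv_mem hz, w⁻¹, inv_mem hw, ?_⟩
    rw [Zg.comm hz w, mul_inv_rev]

theorem le_ZW {W : Subgroup Dˣ} : W ≤ ZW K W := fun w hw => ⟨1, one_mem _, w, hw, (one_mul w).symm⟩

theorem Zg_le_ZW {W : Subgroup Dˣ} : Zg K D ≤ ZW K W :=
  fun z hz => ⟨z, hz, 1, one_mem _, (mul_one z).symm⟩

theorem ZW_mono {W W' : Subgroup Dˣ} (h : W ≤ W') : ZW K W ≤ ZW K W' := by
  rintro _ ⟨z, hz, w, hw, rfl⟩
  exact ⟨z, hz, w, h hw, rfl⟩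

theorem comm_ZW {z z' w w' : Dˣ} (hz : z ∈ Zg K D) (hz' : z' ∈ Zg K D) :
    ⁅z * w, z' * w'⁆ = ⁅w, w'⁆ := by
  have h1 : ∀ g : Dˣ, z * g = g * z := Zg.comm hz
  have h2 : ∀ g : Dˣ, z' * g = g * z' := Zg.comm hz'
  have h3 : (z * w) * (z' * w') = (w * w') * (z * z') := by
    rw [h1 w, mul_assoc w z, ← mul_assoc z z', h1 z', mul_assoc z' z, h1 w', ← mul_assoc z',
      h2 w', mul_assoc w' z', ← mul_assoc w, ← h1 z']
  have h4 : (z' * w') * (z * w) = (w' * w) * (z * z') := by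
    rw [h2 w', mul_assoc w' z', ← mul_assoc z' z, h2 z, mul_assoc z z', h2 w, ← mul_assoc z,
      h1 w, mul_assoc w z, ← mul_assoc w']
  have h5 : ∀ a b : Dˣ, ⁅a, b⁆ = (a * b) * (b * a)⁻¹ := fun a b => by
    rw [commutatorElement_def, mul_inv_rev, ← mul_assoc]
  rw [h5, h5, h3, h4]
  group

end centre

section

variable {K D : Type} [Field K] [StarRing K] [DivisionRing D] [StarRing D] [Algebra K D]

/-- The subgroup contains the unitary elements close to one. -/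
def Opn (F : Filter D) (W : Subgroup Dˣ) : Prop :=
  ∃ O ∈ F, ∀ u : Dˣ, u ∈ Ug D → (u : D) ∈ O → u ∈ W

/-- There are arbitrarily small open subgroups of the unitary group. -/
def SmallSub (F : Filter D) : Prop :=
  ∀ O ∈ F, ∃ W : Subgroup Dˣ, W ≤ Ug D ∧ Opn F W ∧ ∀ u ∈ W, (u : D) ∈ O

/-- Continuity at one of `u ↦ u ^ n / N u`. -/
def NrdCont (N : D →* K) (F : Filter D) (n : ℕ) : Prop :=
  ∀ O ∈ F, ∃ O' ∈ F, ∀ u : Dˣ, u ∈ Ug D → (u : D) ∈ O' →
    (u : D) ^ n * algebraMap K D (N (u : D))⁻¹ ∈ O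

/-- The central roots of unity different from one are not close to one. -/
def NoRoot (K : Type) {D : Type} [Field K] [DivisionRing D] [Algebra K D] (F : Filter D)
    (n : ℕ) : Prop :=
  ∃ O ∈ F, ∀ ζ : K, ζ ^ n = 1 → algebraMap K D ζ ∈ O → ζ = 1

/-- **The module**: a homomorphism `c` on an open subgroup `W` of the unitary group which contains
the central unitary elements, which is trivial on them, and which has exponent `e`, is trivial on
the elements of reduced norm one which are close to one (`F`) and lie in some set of the family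
`V`. -/
def ModA (N : D →* K) (F : Filter D) (V : Set (Set Dˣ)) (e : ℕ) : Prop :=
  ∀ (E : Type) [CommGroup E] (W : Subgroup Dˣ), W ≤ Ug D → Opn F W → Zg K D ≤ W →
    ∀ c : Dˣ → E, (∀ u ∈ W, ∀ v ∈ W, c (u * v) = c u * c v) → (∀ u ∈ Zg K D, c u = 1) →
    (∀ u ∈ W, c u ^ e = 1) →
    ∃ O ∈ F, ∃ Y ∈ V, ∀ u ∈ W, N (u : D) = 1 → (u : D) ∈ O → u ∈ Y → c u = 1

/-- **The abstract solvable step.** -/
theorem core {n : ℕ} {N : D →* K} (hN : ∀ a : K, N (algebraMap K D a) = a ^ n)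
    (hNst : ∀ u : Dˣ, u ∈ Ug D → algebraMap K D (N (u : D)) * star (algebraMap K D (N (u : D))) = 1)
    {F : Filter D} {V : Set (Set Dˣ)} {l : ℕ} (hF : SmallSub F)
    (hNC : NrdCont N F n) (hNR : NoRoot K F n) (hA : ModA N F V (n * l)) {Q : Subgroup Dˣ}
    (hQG : Q ≤ Gg N) {O₁ O₂ : Set D} (hO₁ : O₁ ∈ F) (hO₂ : O₂ ∈ F)
    (hcom : ∀ u v : Dˣ, u ∈ Ug D → v ∈ Ug D → (u : D) ∈ O₁ → (v : D) ∈ O₁ → ⁅u, v⁆ ∈ Q)
    (hl : ∀ u : Dˣ, u ∈ Gg N → (u : D) ∈ O₂ → u ^ l ∈ Q) :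
    ∃ O ∈ F, ∃ Y ∈ V, ∀ u ∈ Gg N, (u : D) ∈ O → u ∈ Y → u ∈ Q := by
  obtain ⟨O₃, hO₃, hroot⟩ := hNR
  obtain ⟨W, hWU, ⟨O₄, hO₄, h4⟩, hWO⟩ := hF (O₁ ∩ O₂ ∩ O₃)
    (inter_mem (inter_mem hO₁ hO₂) hO₃)
  obtain ⟨O₅, hO₅, h5⟩ := hNC O₄ hO₄
  obtain ⟨W₁, hW₁U, ⟨O₆, hO₆, h6⟩, hW₁O⟩ := hF (O₄ ∩ O₅) (inter_mem hO₄ hO₅)
  have hW₁W : W₁ ≤ W := fun u hu => h4 u (hW₁U hu) (hW₁O u hu).1
  have hcW : ∀ u ∈ W, ∀ v ∈ W, ⁅u, v⁆ ∈ W := by
    intro u hu v hv
    rw [commutatorElement_def]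
    exact W.mul_mem (W.mul_mem (W.mul_mem hu hv) (W.inv_mem hu)) (W.inv_mem hv)
  -- the elements `u ^ n / N u`
  have hdet : ∀ u ∈ W₁, ∃ z ∈ Zg K D, u ^ n * z⁻¹ ∈ W ∧ (u ^ n * z⁻¹) ^ l ∈ Q := by
    intro u hu
    have hN0 : N (u : D) ≠ 0 := by
      intro h0
      have := hNst u (hW₁U hu)
      rw [h0, map_zero, zero_mul] at this
      exact zero_ne_one this
    have hz0 : algebraMap K D (N (u : D)) ≠ 0 :=
      (map_ne_zero_iff _ (algebraMap K D).injective).mpr hN0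
    let z : Dˣ := Units.mk0 _ hz0
    have hz : z ∈ Zg K D := ⟨hNst u (hW₁U hu), N (u : D), rfl⟩
    have h7 : ((u ^ n * z⁻¹ : Dˣ) : D) = (u : D) ^ n * algebraMap K D (N (u : D))⁻¹ := by
      rw [Units.val_mul, Units.val_pow_eq_pow_val, Units.val_inv_eq_inv_val, map_inv₀]
      rfl
    have h8 : u ^ n * z⁻¹ ∈ Ug D := mul_mem (pow_mem (hW₁U hu) n) (inv_mem hz.1)
    have h9 : u ^ n * z⁻¹ ∈ W := h4 _ h8 (by
      rw [h7]
      exact h5 u (hW₁U hu) (hW₁O u hu).2)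
    have h10 : u ^ n * z⁻¹ ∈ Gg N := by
      refine ⟨h8, ?_⟩
      rw [h7, map_mul, map_pow, hN, inv_pow, mul_inv_cancel₀ (pow_ne_zero n hN0)]
    exact ⟨z, hz, h9, hl _ h10 (hWO _ h9).1.2⟩
  -- the quotient
  have hPcom : ∀ g ∈ ZW K W, ∀ x ∈ ZW K W, ⁅g, x⁆ ∈ ZW K (Q ⊓ W) := by
    rintro _ ⟨z, hz, w, hw, rfl⟩ _ ⟨z', hz', w', hw', rfl⟩
    rw [comm_ZW hz hz']
    exact le_ZW ⟨hcom w w' (hWU hw) (hWU hw') (hWO w hw).1.1 (hWO w' hw').1.1, hcW w hw w' hw'⟩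
  obtain ⟨E, i1, c, hcm, hc1⟩ := exists_quot_char (Q := ZW K (Q ⊓ W)) (H := ZW K W) hPcom
  have hone : c 1 = 1 := (hc1 1 (one_mem _)).mpr (one_mem _)
  have hpow : ∀ (m : ℕ), ∀ u ∈ ZW K W, c (u ^ m) = c u ^ m := by
    intro m u hu
    induction m with
    | zero => rw [pow_zero, pow_zero, hone]
    | succ m ih => rw [pow_succ, pow_succ, hcm _ (pow_mem hu m) _ hu, ih]
  have hcZ : ∀ z ∈ Zg K D, c z = 1 := fun z hz => (hc1 z (Zg_le_ZW hz)).mpr (Zg_le_ZW hz)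
  -- the exponent
  have hexp : ∀ u ∈ ZW K W₁, c u ^ (n * l) = 1 := by
    rintro _ ⟨z, hz, w, hw, rfl⟩
    obtain ⟨y, hy, hg, hgl⟩ := hdet w hw
    have hwW : w ∈ ZW K W := le_ZW (hW₁W hw)
    have h1 : c (z * w) = c w := by rw [hcm z (Zg_le_ZW hz) w hwW, hcZ z hz, one_mul]
    have h3 : w ^ n * y⁻¹ ∈ ZW K W := le_ZW hg
    have h4 : c w ^ n = c (w ^ n * y⁻¹) := by
      have h2 := hcm _ h3 y (Zg_le_ZW hy)
      rw [inv_mul_cancel_right, hcZ y hy, mul_one] at h2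
      rw [← hpow n w hwW, h2]
    have h5 : c (w ^ n * y⁻¹) ^ l = 1 := by
      rw [← hpow l _ h3]
      exact (hc1 _ (pow_mem h3 l)).mpr (le_ZW ⟨hgl, pow_mem hg l⟩)
    rw [h1, pow_mul, h4, h5]
  have hZWU : ∀ W' : Subgroup Dˣ, W' ≤ Ug D → ZW K W' ≤ Ug D := by
    rintro W' hW' _ ⟨z, hz, w, hw, rfl⟩
    exact mul_mem hz.1 (hW' hw)
  obtain ⟨O, hO, Y, hY, h7⟩ := hA E (ZW K W₁) (hZWU _ hW₁U)
    ⟨O₆, hO₆, fun u hu huO => le_ZW (h6 u hu huO)⟩ Zg_le_ZW c
    (fun u hu v hv => hcm u (ZW_mono hW₁W hu) v (ZW_mono hW₁W hv)) hcZ hexp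
  refine ⟨O ∩ O₆, inter_mem hO hO₆, Y, hY, fun u hu huO huY => ?_⟩
  have huW₁ : u ∈ W₁ := h6 u hu.1 huO.2
  have h8 : c u = 1 := h7 u (le_ZW huW₁) hu.2 huO.1 huY
  obtain ⟨z, hz, q, hq, huq⟩ := (hc1 u (le_ZW (hW₁W huW₁))).mp h8
  -- the central factor is one
  have hzW : z ∈ W := by
    have : z = u * q⁻¹ := by rw [huq, mul_inv_cancel_right]
    rw [this]
    exact mul_mem (hW₁W huW₁) (inv_mem hq.2)
  obtain ⟨-, ζ, hζ⟩ := hz
  have hζn : ζ ^ n = 1 := by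
    have h9 : N (u : D) = N (z : D) * N (q : D) := by rw [huq, Units.val_mul, map_mul]
    rw [hu.2, (hQG hq.1).2, mul_one, ← hζ, hN] at h9
    exact h9.symm
  have hζ1 : ζ = 1 := hroot ζ hζn (by rw [hζ]; exact (hWO z hzW).2)
  have hz1 : z = 1 := Units.ext (by rw [← hζ, hζ1, map_one, Units.val_one])
  rw [huq, hz1, one_mul]
  exact hq.1

end

end Vale.Agent.P011.H627.Odd
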