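import Vale.Agent.P011.H627.Odd.GlueP
import Vale.Agent.P011.H95.Odd.LCx
import Vale.Agent.P011.H158.Psi.Base3
import Vale.Agent.P011.H505.Span.NF
import Vale.Agent.P011.H775.Odd.TopMod

/-!
**Number fields: local constancy.**
-/

open NumberField IsDedekindDomain Module Filter Topology

set_option linter.unusedSectionVars false

namespace Vale.Agent.P011.H627.Odd

open Vale.Agent.P011.H775.Top Vale.Agent.P011.H439
open Vale.Agent.P011.Arith Vale.Agent.P011.Even Vale.Agent.P011.Two Vale.Agent.P011.One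
  Vale.Agent.P011.Pow
open Vale.Agent.P011.H95.Odd (Spn SmK LCp lc_all)
open Vale.Agent.P011.H158.Psi (lcd_of_lc cop_base dm_base)

section

variable {k K D : Type} [Field k] [NumberField k] [Field K] [NumberField K] [StarRing K]
  [DivisionRing D] [StarRing D] [Algebra k K] [Algebra k D] [Algebra K D] [IsScalarTower k K D]
  {d : kˣ} {s : K} {n M : ℕ}

/-- The span property over number fields. -/
theorem spn_nf (hS : Setting k K D d s) (hn : 3 ≤ n) (hdeg : finrank K D = n ^ 2)
    (B : Basis (Fin M) k D) {T : Finset (Pl k)} [Nonempty T] (hT : GoodT K D n d T) :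
    @Spn D _ _ (topD B (av T)) := by
  classical
  have hfin : FiniteDimensional K D := hS.fin
  have hcen : Algebra.IsCentral K D := hS.cen
  obtain ⟨f⟩ := Vale.Agent.P011S.exists_split (K := K) (D := D) hdeg (AlgebraicClosure K)
  let T1 : Finset (HeightOneSpectrum (𝓞 k)) := T.preimage Sum.inl Sum.inl_injective.injOn
  have hT1 : ∀ v, v ∈ T1 ↔ (Sum.inl v : Pl k) ∈ T := fun v => Finset.mem_preimage
  intro O hO
  obtain ⟨ε, hε, hO⟩ := (mem_nhds_iff B (av T)).mp hO
  obtain ⟨δ, hδ, hδ'⟩ := H505.Span.span_nf hS hn hdeg f B T1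
    (fun v hv => (hT1 v).mpr (hT.div hv)) hε
  refine (mem_nhds_iff B (av T)).mpr ⟨δ, hδ, fun x hx => ?_⟩
  have h1 := hδ' x fun v hv l => by
    have h2 := hx ⟨Sum.inl v, (hT1 v).mp hv⟩ l
    rw [sub_zero] at h2
    exact h2
  refine AddSubgroup.closure_mono ?_ h1
  rintro y ⟨u, hu, h3, h4⟩
  refine ⟨u, hO u fun i j => ?_, hu, h4⟩
  obtain ⟨v, hv, -⟩ := hT.fin i.1 i.2
  have h5 : av T i = plAbv (Sum.inl v) := by rw [av, hv]
  rw [h5]
  exact h3 v ((hT1 v).mpr (hv ▸ i.2)) j

/-- **Local constancy over number fields**, at every base point. -/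
theorem lcd_nf (hS : Setting k K D d s) (hn : 3 ≤ n) (hdeg : finrank K D = n ^ 2)
    (B : Basis (Fin M) k D) {T : Finset (Pl k)} [Nonempty T] (hT : GoodT K D n d T)
    {E : Type} [AddCommGroup E] {W : Set D} {ch : D → E}
    (hc : @Chr K D E _ _ _ _ _ (topD B (av T)) _ W ch) {κ : K} (hκ : star κ ≠ κ) :
    ∃ C : D → E, @H182.Odd.LCd K D E _ _ _ _ _ (topD B (av T)) _ ch κ C := by
  have hfinK : FiniteDimensional K D := hS.fin
  have hcen : Algebra.IsCentral K D := hS.cen
  have hfk : FiniteDimensional k K := Module.finite_of_finrank_pos (by rw [hS.rank]; norm_num)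
  have hstk : ∀ (c : k) (x : D), star (c • x) = c • star x := by
    intro c x
    rw [← algebraMap_smul K c x, hS.star_smul, (hS.fix _).mpr ⟨c, rfl⟩, algebraMap_smul]
  have hfix : ∀ c : k, star (algebraMap k K c) = algebraMap k K c := fun c =>
    (hS.fix _).mpr ⟨c, rfl⟩
  have hstK : ∀ (c : k) (x : K), star (c • x) = c • star x := by
    intro c x
    rw [Algebra.smul_def, Algebra.smul_def, star_mul', hfix]
  have hna : ∀ i, IsNonarchimedean (av T i) :=
    av_nonarch fun p hp => ⟨(hT.fin p hp).choose, (hT.fin p hp).choose_spec.1⟩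
  let BK := finBasis k K
  let BD := finBasis K D
  have hspn := spn_nf hS hn hdeg B hT
  have hsm := inst_norm (K := K) B T hfix
  rw [topI_eq B BK (av T)] at hsm
  have hc1 := H775.Top.continuous_lin BK B (av T) (IsScalarTower.toAlgHom k K D).toLinearMap
  have hc2 := fun i => H775.Top.continuous_lin B BK (av T) ((BD.coord i).restrictScalars k)
  let _ := topD B (av T)
  let _ := topD BK (av T)
  have i1 : IsTopologicalDivisionRing D := isTopologicalDivisionRing B (av T)
  have i2 : ContinuousStar D := inst_star B T hstk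
  have i3 : T2Space D := t2 B (av T)
  have i4 : IsTopologicalDivisionRing K := isTopologicalDivisionRing BK (av T)
  have i5 : ContinuousStar K := continuousStar BK (av T) hstK
  have i6 : T2Space K := t2 BK (av T)
  have i7 : NonarchimedeanAddGroup D := nonarchimedeanAddGroup B (av T) hna
  have i8 : StarModule K D := ⟨hS.star_smul⟩
  have hinf : {x : K | star x = x}.Infinite := by
    refine Set.infinite_of_injective_forall_mem (f := algebraMap k K) (algebraMap k K).injective ?_
    exact fun c => hfix c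
  obtain ⟨m, hm⟩ : ∃ m, finrank K D = m + 1 := ⟨n ^ 2 - 1, by
    have : 0 < n ^ 2 := by positivity
    omega⟩
  have hLC : LCp K W ch (finrank K D) := by
    rw [hm]
    exact lc_all hc1 hspn hsm ⟨κ, hκ⟩ hinf hc m
  obtain ⟨C, h1, h2⟩ := lcd_of_lc hκ hc hc1 BD hc2
    (hLC 1 _ _ _ (cop_base hκ) (dm_base hκ hc))
  exact ⟨C, ⟨hκ, h1, h2⟩⟩

/-- **Local constancy over number fields.** -/
theorem modLC_nf (hn : 3 ≤ n) : ModLCNF n := by
  intro k K D _ _ _ _ _ _ _ _ _ _ _ d s hS hdeg M B T _ hT e _ E _ W ch hc _ κ hκ _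
  exact lcd_nf hS hn hdeg B hT hc hκ

end

end Vale.Agent.P011.H627.Odd
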