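import Vale.Agent.P011.H627.Odd.LCNF
import Vale.Agent.P011.H182.Odd.PsiNF

/-!
**Number fields: the local homomorphism.**
-/

open NumberField IsDedekindDomain Module Filter Topology

set_option linter.unusedSectionVars false

namespace Vale.Agent.P011.H627.Odd

open Vale.Agent.P011.H775.Top Vale.Agent.P011.H439
open Vale.Agent.P011.Arith Vale.Agent.P011.Even Vale.Agent.P011.Two Vale.Agent.P011.One
  Vale.Agent.P011.Pow

/-- **The local homomorphism over number fields, every odd degree.** -/
theorem modPsi_nf {n : ℕ} (hn : 3 ≤ n) (ho : Odd n) : ModPsiNF n := by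
  intro k K D _ _ _ _ _ _ _ _ _ _ _ d s hS hdeg M B T _ hT e he E _ W ch hc hE
  have hκ : star s ≠ s := by
    rw [hS.star_s]
    intro h0
    have hs0 : s = 0 := by
      have h3 : (2 : K) * s = 0 := by
        rw [two_mul]
        nth_rewrite 1 [← h0]
        rw [neg_add_cancel]
      rcases mul_eq_zero.mp h3 with h4 | h4
      · exact absurd h4 two_ne_zero
      · exact h4
    have h1 := hS.sq
    rw [hs0, zero_pow two_ne_zero] at h1
    exact d.ne_zero ((map_eq_zero (algebraMap k K)).mp h1.symm)
  obtain ⟨C, hC⟩ := lcd_nf hS hn hdeg B hT hc hκ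
  exact H182.Odd.psi_nf hS ho hdeg B T (T0 d T) subset_T0
    (fun φ h => mem_T0.mpr (Or.inr ⟨φ, h, rfl⟩)) hT.fin hc hC

/-- **Number fields: what is left are the real places and the elements of reduced norm one.** -/
theorem solv_of_two (hV : ∀ n, 3 ≤ n → Odd n → ModRealNF n)
    (hR : ∀ n, 3 ≤ n → Odd n → ModRWNF n) : ∀ n, 3 ≤ n → Odd n → H976.Solv n :=
  solv_of (fun n hn ho => modP_of (modPsi_nf hn ho) (hV n hn ho)) hR

end Vale.Agent.P011.H627.Odd
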