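import Vale.Agent.P011.H627.Odd.SolvReal
import Vale.Agent.P011.H263.RealF

/-!
**Number fields: the solvable step in every odd degree.**
-/

open NumberField IsDedekindDomain Module Filter Topology

namespace Vale.Agent.P011.H627.Odd

/-- The real places. -/
theorem modReal_nf {n : ℕ} (hn : 0 < n) : ModRealNF n := by
  intro k K D _ _ _ _ _ _ _ _ _ _ _ d s hS hdeg M B T _ hT E _ W ch hc P h1 h2
  obtain ⟨V, h3, -, h4⟩ := H263.real_ext hS hn hdeg B (T := T) (T₀ := T0 d T)
    (fun p hp => ⟨(hT.fin p hp).choose, (hT.fin p hp).choose_spec.1⟩) (fun p => mem_T0) hc h1 h2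
  exact ⟨V, h3, h4⟩

/-- **The solvable step over number fields, every odd degree.** -/
theorem solv_odd {n : ℕ} (hn : 3 ≤ n) (ho : Odd n) : H976.Solv n :=
  solv_of_real (fun _ hn _ => modReal_nf (by omega)) n hn ho

end Vale.Agent.P011.H627.Odd
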