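import Vale.Agent.P011.H627.Odd.PsiNF
import Vale.Agent.P011.H612.Germ.RwNF

/-!
**Number fields: the solvable step in odd degree from the real places alone.**
-/

namespace Vale.Agent.P011.H627.Odd

/-- **Number fields: what is left are the real places.** -/
theorem solv_of_real (hV : ∀ n, 3 ≤ n → Odd n → ModRealNF n) :
    ∀ n, 3 ≤ n → Odd n → H976.Solv n :=
  solv_of_two hV H612.Germ.modRW_nf

end Vale.Agent.P011.H627.Odd
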